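import Vale.Agent.P052.Defs
import Mathlib

/-!
P052: sets in a small ball. If `X` lies in a closed ball of radius `r` with
`4 (d+1) r² < (d+2) diam(X)²`, then `X` is a union of `d+1` sets of smaller diameter.
-/

namespace Vale.Agent.P052.H385

open Finset

/-- two vectors of sum zero with a common largest coordinate -/
lemma cell_ineq {d : ℕ} {a b : Fin (d + 1) → ℝ} (ha : ∑ j, a j = 0) (hb : ∑ j, b j = 0)
    {i : Fin (d + 1)} (hai : ∀ j, a j ≤ a i) (hbi : ∀ j, b j ≤ b i) :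
    (d + 2) * ∑ j, (a j - b j) ^ 2 ≤ 2 * (d + 1) * (∑ j, a j ^ 2 + ∑ j, b j ^ 2) := by
  set N : ℝ := d + 1 with hN
  have hN0 : 0 < N := by positivity
  have hcard : ((univ : Finset (Fin (d + 1))).card : ℝ) = N := by
    rw [card_univ, Fintype.card_fin]
    push_cast
    rfl
  -- `g j = a i - a j`
  have hG : ∑ j, (a i - a j) = N * a i := by
    rw [sum_sub_distrib, ha, sum_const, nsmul_eq_mul, hcard, sub_zero]
  have hG' : ∑ j, (b i - b j) = N * b i := by
    rw [sum_sub_distrib, hb, sum_const, nsmul_eq_mul, hcard, sub_zero]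
  have hT : 0 ≤ ∑ j, (a i - a j) * (b i - b j) :=
    sum_nonneg fun j _ => mul_nonneg (sub_nonneg.2 (hai j)) (sub_nonneg.2 (hbi j))
  -- Cauchy on the coordinates different from `i`
  have hC : (N * a i + N * b i) ^ 2 ≤ d * ∑ j, ((a i - a j) + (b i - b j)) ^ 2 := by
    have h1 := sq_sum_le_card_mul_sum_sq (s := univ.erase i)
      (f := fun j => (a i - a j) + (b i - b j))
    have h2 : ∑ j ∈ univ.erase i, ((a i - a j) + (b i - b j)) = N * a i + N * b i := by
      rw [← hG, ← hG', ← sum_add_distrib]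
      exact sum_erase _ (by ring)
    have h3 : ∑ j ∈ univ.erase i, ((a i - a j) + (b i - b j)) ^ 2 =
        ∑ j, ((a i - a j) + (b i - b j)) ^ 2 := sum_erase _ (by ring)
    rw [h2, h3, card_erase_of_mem (mem_univ i), card_univ, Fintype.card_fin,
      Nat.add_sub_cancel] at h1
    exact h1
  have eT : ∑ j, (a i - a j) * (b i - b j) = N * (a i * b i) + ∑ j, a j * b j := by
    have : ∀ j, (a i - a j) * (b i - b j) = a i * b i - a i * b j - b i * a j + a j * b j :=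
      fun j => by ring
    simp only [this, sum_add_distrib, sum_sub_distrib, ← mul_sum, ha, hb, sum_const, nsmul_eq_mul,
      hcard]
    ring
  have eS : ∑ j, ((a i - a j) + (b i - b j)) ^ 2 =
      N * (a i + b i) ^ 2 + ∑ j, a j ^ 2 + ∑ j, b j ^ 2 + 2 * ∑ j, a j * b j := by
    have : ∀ j, ((a i - a j) + (b i - b j)) ^ 2 =
        (a i + b i) ^ 2 - 2 * (a i + b i) * a j - 2 * (a i + b i) * b j + a j ^ 2 + b j ^ 2 +
          2 * (a j * b j) := fun j => by ring
    simp only [this, sum_add_distrib, sum_sub_distrib, ← mul_sum, ha, hb, sum_const, nsmul_eq_mul,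
      hcard]
    ring
  have eD : ∑ j, (a j - b j) ^ 2 = ∑ j, a j ^ 2 + ∑ j, b j ^ 2 - 2 * ∑ j, a j * b j := by
    have : ∀ j, (a j - b j) ^ 2 = a j ^ 2 + b j ^ 2 - 2 * (a j * b j) := fun j => by ring
    simp only [this, sum_add_distrib, sum_sub_distrib, ← mul_sum]
  rw [eS] at hC
  rw [eT] at hT
  rw [eD]
  set A := ∑ j, a j ^ 2
  set B := ∑ j, b j ^ 2
  set M := ∑ j, a j * b j
  have hd : (d : ℝ) = N - 1 := by rw [hN]; ring
  rw [hd] at hC
  have hd2 : (d : ℝ) + 2 = N + 1 := by rw [hN]; ring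
  rw [hd2]
  -- `hC : N² s² ≤ (N-1) (N s² + A + B + 2M)`, so `N s² ≤ (N-1)(A+B+2M)`
  have hC' : N * (a i + b i) ^ 2 ≤ (N - 1) * (A + B + 2 * M) := by nlinarith
  nlinarith [mul_nonneg hN0.le (sq_nonneg (a i - b i))]

/-- a linear isometry onto vectors of sum zero -/
lemma exists_iso (d : ℕ) : ∃ φ : EuclideanSpace ℝ (Fin d) →ₗᵢ[ℝ] EuclideanSpace ℝ (Fin (d + 1)),
    ∀ x, ∑ j, φ x j = 0 := by
  set v : EuclideanSpace ℝ (Fin (d + 1)) := WithLp.toLp 2 (fun _ => (1 : ℝ)) with hv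
  have hv0 : v ≠ 0 := by
    intro h
    have h1 : v 0 = 0 := by rw [h]; rfl
    have h2 : v 0 = 1 := rfl
    rw [h2] at h1
    exact one_ne_zero h1
  have : Fact (Module.finrank ℝ (EuclideanSpace ℝ (Fin (d + 1))) = d + 1) :=
    ⟨by simp⟩
  let e := (OrthonormalBasis.fromOrthogonalSpanSingleton (𝕜 := ℝ) d hv0).repr.symm
  refine ⟨(Submodule.subtypeₗᵢ _).comp e.toLinearIsometry, fun x => ?_⟩
  have h1 : ((e x : (Submodule.span ℝ {v})ᗮ) : EuclideanSpace ℝ (Fin (d + 1))) ∈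
      (Submodule.span ℝ {v})ᗮ := (e x).2
  rw [Submodule.mem_orthogonal_singleton_iff_inner_right, PiLp.inner_apply] at h1
  simpa [hv] using h1

/-- the cells of a regular simplex centred at `c`, cut by a ball -/
theorem ball_cells {d : ℕ} (c : EuclideanSpace ℝ (Fin d)) (r : ℝ) :
    ∃ P : Fin (d + 1) → Set (EuclideanSpace ℝ (Fin d)), (⋃ i, P i) = Metric.closedBall c r ∧
      ∀ i, Metric.diam (P i) ≤ Real.sqrt (4 * (d + 1) * r ^ 2 / (d + 2)) := by
  obtain ⟨φ, hφ⟩ := exists_iso d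
  set R : ℝ := Real.sqrt (4 * (d + 1) * r ^ 2 / (d + 2)) with hR
  have hR2 : R ^ 2 = 4 * (d + 1) * r ^ 2 / (d + 2) := Real.sq_sqrt (by positivity)
  refine ⟨fun i => {x ∈ Metric.closedBall c r | ∀ j, φ (x - c) j ≤ φ (x - c) i}, ?_, fun i => ?_⟩
  · ext x
    simp only [Set.mem_iUnion, Set.mem_ofPred_eq]
    constructor
    · rintro ⟨i, hx, -⟩
      exact hx
    · intro hx
      obtain ⟨i, -, hi⟩ := exists_max_image (univ : Finset (Fin (d + 1)))
        (fun j => φ (x - c) j) univ_nonempty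
      exact ⟨i, hx, fun j => hi j (mem_univ j)⟩
  · refine Metric.diam_le_of_forall_dist_le (Real.sqrt_nonneg _) ?_
    rintro x ⟨hx, hxi⟩ y ⟨hy, hyi⟩
    have h1 := cell_ineq (hφ (x - c)) (hφ (y - c)) hxi hyi
    have h2 : ∑ j, (φ (x - c) j - φ (y - c) j) ^ 2 = dist x y ^ 2 := by
      have : dist x y = ‖φ (x - c) - φ (y - c)‖ := by
        rw [← map_sub, φ.norm_map, sub_sub_sub_cancel_right, dist_eq_norm]
      rw [this, EuclideanSpace.norm_sq_eq]
      refine sum_congr rfl fun j _ => ?_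
      rw [Real.norm_eq_abs, sq_abs]
      rfl
    have h3 : ∀ z ∈ Metric.closedBall c r, ∑ j, φ (z - c) j ^ 2 ≤ r ^ 2 := by
      intro z hz
      have h4 : ∑ j, φ (z - c) j ^ 2 = ‖z - c‖ ^ 2 := by
        rw [← φ.norm_map, EuclideanSpace.norm_sq_eq]
        refine sum_congr rfl fun j _ => ?_
        rw [Real.norm_eq_abs, sq_abs]
      rw [h4]
      rw [Metric.mem_closedBall, dist_eq_norm] at hz
      exact pow_le_pow_left₀ (norm_nonneg _) hz 2
    rw [h2] at h1
    have h4 := h3 x hx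
    have h5 := h3 y hy
    have h6 : dist x y ^ 2 ≤ R ^ 2 := by
      rw [hR2, le_div_iff₀ (by positivity)]
      have h7 : 2 * ((d : ℝ) + 1) * (∑ j, φ (x - c) j ^ 2 + ∑ j, φ (y - c) j ^ 2) ≤
          2 * ((d : ℝ) + 1) * (r ^ 2 + r ^ 2) :=
        mul_le_mul_of_nonneg_left (add_le_add h4 h5) (by positivity)
      linarith
    exact le_of_sq_le_sq h6 (Real.sqrt_nonneg _)

lemma sqrt_lt_of {d : ℕ} {r D : ℝ} (hD : 0 ≤ D) (hr : 4 * (d + 1) * r ^ 2 < (d + 2) * D ^ 2) :
    Real.sqrt (4 * (d + 1) * r ^ 2 / (d + 2)) < D := by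
  have h1 : Real.sqrt (4 * (d + 1) * r ^ 2 / (d + 2)) ^ 2 < D ^ 2 := by
    rw [Real.sq_sqrt (by positivity), div_lt_iff₀ (by positivity)]
    linarith
  exact lt_of_pow_lt_pow_left₀ 2 hD h1

/-- **sets in a small ball** -/
theorem ball_cover {d : ℕ} {X : Set (EuclideanSpace ℝ (Fin d))} {c : EuclideanSpace ℝ (Fin d)}
    {r : ℝ} (hX : X ⊆ Metric.closedBall c r)
    (hr : 4 * (d + 1) * r ^ 2 < (d + 2) * Metric.diam X ^ 2) : IsSmallerCover X (d + 1) := by
  obtain ⟨P, hP, hd⟩ := ball_cells c r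
  refine ⟨fun i => X ∩ P i, ?_, fun i => ?_⟩
  · rw [← Set.inter_iUnion, hP]
    exact Set.inter_eq_left.2 hX
  · refine lt_of_le_of_lt ?_ (sqrt_lt_of Metric.diam_nonneg hr)
    refine (Metric.diam_mono Set.inter_subset_right ?_).trans (hd i)
    exact (Metric.isBounded_closedBall (x := c) (r := r)).subset
      ((Set.subset_iUnion P i).trans hP.subset)

end Vale.Agent.P052.H385
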