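import Vale.Agent.P052.R2.H385.Ball
import Vale.Agent.P052.H342.CoreMain

/-!
P052: it is enough that the points of the closure with at least two far points lie in a small
ball.
-/

namespace Vale.Agent.P052.H385

/-- **the doubly far points lie in a small ball** -/
theorem ball_core {d : ℕ} {X : Set (EuclideanSpace ℝ (Fin d))} (hX : Bornology.IsBounded X)
    (hD : 0 < Metric.diam X) {c : EuclideanSpace ℝ (Fin d)} {r : ℝ}
    (hr : 4 * (d + 1) * r ^ 2 < (d + 2) * Metric.diam X ^ 2)
    (h : ∀ x ∈ closure X, ∀ y ∈ closure X, ∀ z ∈ closure X, y ≠ z →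
      dist x y = Metric.diam X → dist x z = Metric.diam X → x ∈ Metric.closedBall c r) :
    IsSmallerCover X (d + 1) := by
  obtain ⟨P, hP, hd⟩ := ball_cells c r
  refine H342.main_reduction d (d + 1) le_rfl X hX hD P (fun i => ?_) (fun i => ?_) ?_
  · exact (Metric.isBounded_closedBall (x := c) (r := r)).subset
      ((Set.subset_iUnion P i).trans hP.subset)
  · exact (hd i).trans_lt (sqrt_lt_of Metric.diam_nonneg hr)
  · intro x hx y hy z hz hyz h1 h2
    rw [hP]
    exact h x hx y hy z hz hyz h1 h2

end Vale.Agent.P052.H385
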